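import Crest.Agent.X262.Bv3.Fld
import Crest.Agent.X262.Gal71.Desc
import Crest.Agent.X262.Geo.Dv
import Crest.Agent.X277.GF.Kun

/-!
# Row 262, G4 / BV (helper3), part 3: the norm from the incidence variety

`E = ℂ(x)` is the field of the Grassmannian, `F' = E(s)` the field of the pairs (line, point).

* `deg_test` : `[F' : E] = 4`, and the degree of the norm of a class `c` is `c . h`;
* `nm_oP`    : the norm of the hyperplane class; `nm_lin` : the norm of a class of the quartic.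
-/

set_option autoImplicit false
set_option linter.unusedSectionVars false

open MvPolynomial

noncomputable section

namespace Crest.Agent.X262.Bv3

open Crest.Agent.X277 Crest.Agent.X277.Lef Crest.Agent.X277.BD Crest.Agent.X277.BD.Cyc
open Crest.Agent.X262.St91 Crest.Agent.X262.Geo Crest.Agent.X262.Lin62 Crest.Agent.X262.Gal71
open Crest.Agent.X277.BD.Br (On oP At)
open Crest.Agent.X262.Top (Hyp)
open Crest.Agent.X262.Brg.Hyp0 Crest.Agent.R274.Prod1_134
open IntermediateField (adjoin)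
open Set (range)
open Module (finrank)

attribute [local irreducible] mxf

variable {Γ : MvPolynomial (Fin 4) ℂ}

theorem pb_up {M A B : Type} [Field M] [Field A] [Field B] [Algebra ℂ M] [Algebra ℂ A] [Algebra ℂ B]
    [Algebra M A] [Algebra M B] [IsScalarTower ℂ M A] [IsScalarTower ℂ M B] (α : A →ₐ[M] B)
    (β : A →ₐ[ℂ] B) (h : ∀ z, α z = β z) (a : BD ℂ A) : pb α (up M a) = up M (pb β a) :=
  (mp_mp (j'' := (β : A →+* B)) (h'' := fun c => ⟨algebraMap ℂ M c, by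
    rw [RingHom.coe_coe, β.commutes, IsScalarTower.algebraMap_apply ℂ M B]⟩) h a).trans
    (mp_mp (fun _ => rfl) a).symm

/-- projection from a point outside the quartic -/
theorem mxf_proj (hΓ : Γ.IsHomogeneous 4) {M K : Type} [Field M] [Field K] [Algebra ℂ M]
    [Algebra ℂ K] [Algebra M K] [IsScalarTower ℂ M K] {x : Fin 4 → K} {s : K} {m : Fin 2 → M}
    (h0 : algebraMap M K (m 0) = x 0) (h1 : algebraMap M K (m 1) = x 1) {c : M} (hc : c ≠ 0)
    (h2 : aeval (vv x) Γ = algebraMap M K c) (h3 : aeval (uu x + s • vv x) Γ = 0) :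
    mxf M (uu x + s • vv x) = mx1 M ![x 2, x 3] := by
  have e0 : (uu x + s • vv x) 0 = 1 := by simp [uu, vv]
  have e1 : (uu x + s • vv x) 1 = s := by simp [uu, vv]
  have e2 : (uu x + s • vv x) 2 = -x 2 + m 0 • s := by
    simp [uu, vv, Algebra.smul_def, h0, mul_comm]
  have e3 : (uu x + s • vv x) 3 = -x 3 + m 1 • s := by
    simp [uu, vv, Algebra.smul_def, h1, mul_comm]
  refine le_antisymm (mxf_le ⟨0, by simp [e0]⟩ fun i => ?_) (mxf_le ⟨0, by simp⟩ fun i => ?_)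
  · have g0 := nonneg_iff.1 (mx1_nonneg (k := M) ![x 2, x 3])
    have g2 : x 2 ∈ _ := mem_mx1 (k := M) ![x 2, x 3] 0
    have g3 : x 3 ∈ _ := mem_mx1 (k := M) ![x 2, x 3] 1
    have g1 : s ∈ (mx1 M ![x 2, x 3]).Sec := fun W => not_lt.1 fun hlt => by
      have hs : s ≠ 0 := RZ.ne_zero_iff.1 ((val_pos _ W).trans hlt).ne'
      have hu : ∀ j, W.v (uu x j) < W.v s := fun j => by
        refine lt_of_le_of_lt ?_ hlt
        fin_cases j
        exacts [g0 W, zero_mem (mx1 M ![x 2, x 3]).Sec W, neg_mem g2 W, neg_mem g3 W]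
      have h4 := v_aeval_eq (Γ := Γ) (V := W.dn ℂ) (z := vv x) (z' := s⁻¹ • (uu x + s • vv x))
        (fun j => by
          fin_cases j
          exacts [zero_mem _, one_mem _, (h0 ▸ W.2 _ : x 0 ∈ W.1), (h1 ▸ W.2 _ : x 1 ∈ W.1)])
        (fun j => by
          rw [smul_add, smul_smul, inv_mul_cancel₀ hs, one_smul, Pi.add_apply, add_sub_cancel_right,
            Pi.smul_apply, smul_eq_mul, map_mul, map_inv₀]
          exact (inv_mul_lt_one₀ (RZ.pos (V := W) hs)).2 (hu j))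
        (h2 ▸ W.v_alg hc)
      rw [aeval_smul hΓ, h3, mul_zero, map_zero] at h4
      exact zero_ne_one h4
    have g4 := add_mem (neg_mem g2) (Submodule.smul_mem _ (m 0) g1)
    have g5 := add_mem (neg_mem g3) (Submodule.smul_mem _ (m 1) g1)
    rw [← e0] at g0
    rw [← e2] at g4
    rw [← e3] at g5
    nth_rewrite 1 [← e1] at g1
    fin_cases i
    exacts [g0, g1, g4, g5]
  · have g := mem_Sec_mxf (k := M) (uu x + s • vv x)
    have g0 := g 0
    have g1 := g 1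
    have g2 := g 2
    have g3 := g 3
    rw [e0] at g0
    rw [e1] at g1
    rw [e2] at g2
    rw [e3] at g3
    have g4 := sub_mem (Submodule.smul_mem _ (m 0) g1) g2
    have g5 := sub_mem (Submodule.smul_mem _ (m 1) g1) g3
    rw [sub_add_cancel_right, neg_neg] at g4 g5
    fin_cases i
    exacts [g0, g4, g5]

theorem On_of_add {K : Type} [Field K] [Algebra ℂ K] {P : PModel ℂ K} {a b : BD ℂ K} (ha : Free a)
    (hb : Free b) (h : a + b ∈ On P) : a ∈ On P := by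
  obtain ⟨N, hN⟩ := Br.serre (neg_mem h)
  have h1 := (hN N le_rfl).add hb
  rw [show -(a + b) + N • oP P + b = N • oP P - a by abel] at h1
  exact car_iff_On.1 (Mod.car_of_free Br.free_oP ha h1)

variable {F E F' Ω : Type} [Field F] [Field E] [Field F'] [Field Ω] [Algebra ℂ F] [Algebra ℂ E]
  [Algebra ℂ F'] [Algebra ℂ Ω] [Algebra E F'] [Algebra E Ω] [IsScalarTower ℂ E F']
  [IsScalarTower ℂ E Ω] [Algebra.EssFiniteType ℂ F] [FiniteDimensional E Ω] [IsGalois E Ω]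
  [Fintype (F' →ₐ[E] Ω)] {S : Hyp 3 Γ F} {x : Fin 4 → E} {ι : F →ₐ[ℂ] F'} {s : F'}

theorem root_of (hΓ : Γ.IsHomogeneous 4) {K : Type} [Field K] [Algebra ℂ K] {α : F →ₐ[ℂ] K}
    {x : Fin 4 → K} {s : K} (hy : OnL (fun j => α (S.y j)) x s) :
    aeval (uu x + s • vv x) Γ = 0 :=
  hy.root hΓ ((map_ne_zero α).2 (S.y_ne 0)) (by
    rw [← comp_aeval, AlgHom.comp_apply, (S.ker 4 Γ hΓ).2 dvd_rfl, map_zero])

theorem deg_test (hΓ : Γ.IsHomogeneous 4) (hN : NoL Γ) (hd : dim ℂ F = 2)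
    (h4 : bnum [oP S.P, oP S.P] = 4) (hi : AlgebraicIndependent ℂ x)
    (hx : adjoin ℂ (range x) = ⊤) (hs : adjoin E {s} = ⊤)
    (hy : OnL (fun j => ι (S.y j)) (fun j => algebraMap E F' (x j)) s) (p₀ : F' →ₐ[E] Ω) :
    finrank E F' = 4 ∧ ∀ (c : BD ℂ F) (d : ℤ), Lin (nm E Ω (pb ι c)) (d • mx1 ℂ (p5 x)) →
      d = bnum [c, oP S.P] := by
  have := finite_of_sh p₀
  have := eft_of_top hx
  have : CharZero E := charZero_of_injective_algebraMap (algebraMap ℂ E).injective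
  have : Algebra.EssFiniteType ℂ F' := .comp ℂ E F'
  have : Algebra.EssFiniteType ℂ Ω := .comp ℂ E Ω
  let M := adjoin ℂ (range ![x 0, x 1])
  let m : Fin 2 → M := fun i => ⟨![x 0, x 1] i, IntermediateField.subset_adjoin _ _ ⟨i, rfl⟩⟩
  have : Algebra.EssFiniteType M F' := .of_comp ℂ M F'
  have : Algebra.EssFiniteType M Ω := .of_comp ℂ M Ω
  have hM : dim ℂ M = 2 := dim_of_ind (t := m) (AlgebraicIndependent.of_comp M.val (by
    rw [show M.val ∘ m = x ∘ (![0, 1] : Fin 2 → Fin 4) from funext fun i => by fin_cases i <;> rfl]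
    exact hi.comp _ (by decide))) (adjoin_sub _)
  have hF' : dim ℂ F' = dim ℂ F + dim ℂ M := by
    rw [Loc.dim_tower ℂ E F', dim_of_ind hi hx, Loc.dim_eq_zero_iff.2 inferInstance, hd, hM]
  obtain ⟨e1, e2, e3⟩ := hy.div ((map_ne_zero ι).2 (S.y_ne 0))
  have hD : ∀ D : IntermediateField ℂ F', (∀ z, ι z ∈ D) → (∀ z, inc ℂ M F' z ∈ D) → D = ⊤ := by
    intro D h1 h2
    have h3 : s ∈ D := e1 ▸ div_mem (h1 _) (h1 _)
    have h5 : ∀ z, inc ℂ E F' z ∈ D := mem_of_top hx _ (by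
      rintro _ ⟨j, rfl⟩
      fin_cases j
      · exact h2 (m 0)
      · exact h2 (m 1)
      · have h6 := sub_mem (mul_mem h3 (show algebraMap E F' (x 0) ∈ D from h2 (m 0)))
          (e2 ▸ div_mem (h1 (S.y 2)) (h1 (S.y 0)))
        rwa [sub_add_cancel_right, neg_neg] at h6
      · have h6 := sub_mem (mul_mem h3 (show algebraMap E F' (x 1) ∈ D from h2 (m 1)))
          (e3 ▸ div_mem (h1 (S.y 3)) (h1 (S.y 0)))
        rwa [sub_add_cancel_right, neg_neg] at h6)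
    exact eq_top_iff.2 fun z _ => mem_of_top hs (AlgHom.id E F')
      (D := D.toSubfield.toIntermediateField h5) (by rintro _ rfl; exact h3) z
  have hPF : IsPF ι (inc ℂ M F') := Wd.isPF_of_adjoin
    (inj_of_gen _ _ hF' fun D h1 h2 => by rw [hD D h1 h2]; infer_instance)
    (hD _ (fun z => IntermediateField.subset_adjoin _ _ (.inl ⟨z, rfl⟩))
      fun z => IntermediateField.subset_adjoin _ _ (.inr ⟨z, rfl⟩))
  have hld : ∀ a b : BD ℂ F, bnum [up M (pb ι a), up M (pb ι b)] = bnum [a, b] := fun a b => by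
    rw [← Loc.bnum_ld (GF.pfCv_ld hPF fun _ => rfl) [a, b]]
    congr 2
    · exact mp_mp (fun _ => rfl) a
    · exact congrArg (· :: []) (mp_mp (fun _ => rfl) b)
  have hg : up M (mx1 ℂ (p5 x)) = mx1 M ![x 2, x 3] := by
    rw [mx1, up_mxf]
    refine le_antisymm (mxf_le ⟨0, by simp⟩ fun i => ?_) (mxf_le ⟨0, by simp⟩ fun i => ?_)
    · have g0 := nonneg_iff.1 (mx1_nonneg (k := M) ![x 2, x 3])
      have g2 : x 2 ∈ _ := mem_mx1 (k := M) ![x 2, x 3] 0
      have g3 : x 3 ∈ _ := mem_mx1 (k := M) ![x 2, x 3] 1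
      have g4 : x 0 * 1 ∈ _ := Submodule.smul_mem _ (m 0) g0
      have g5 : x 1 * 1 ∈ _ := Submodule.smul_mem _ (m 1) g0
      rw [mul_one] at g4 g5
      fin_cases i
      exacts [g0, g4, g5, g2, g3,
        sub_mem (Submodule.smul_mem _ (m 0) g3) (Submodule.smul_mem _ (m 1) g2)]
    · have g := mem_Sec_mxf (k := M) (Fin.cons 1 (p5 x) : Fin 6 → E)
      fin_cases i
      exacts [g 0, g 3, g 4]
  have hc : Lin (up M (pb ι (oP S.P))) (pb (inc M E F') (mx1 M ![x 2, x 3])) := by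
    let c : M := aeval (vv ![m 0, m 1, 0, 0]) Γ
    have h1 : algebraMap M E c = aeval (vv x) Γ := map_aeval_vv M.val _
    refine ⟨ι (S.y 0), (map_ne_zero ι).2 (S.y_ne 0), ?_⟩
    rw [Br.pb_oP, up_mxf, hy.mxf_eq ((map_ne_zero ι).2 (S.y_ne 0)), mxf_proj hΓ (m := m)
      (x := fun j => algebraMap E F' (x j)) rfl rfl
      (c := c) (fun h0 => aeval_vv_ne hΓ hN hi (by rw [← h1, h0, map_zero]))
      (map_aeval_vv (inc ℂ M F') ![m 0, m 1, 0, 0]).symm (root_of hΓ hy), pb_mx1]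
    congr 2
    funext i
    fin_cases i <;> rfl
  have h6 : bnum [mx1 M ![x 2, x 3], mx1 M ![x 2, x 3]] ≤ 1 := pn 2 (eq_top_iff.2 fun z _ =>
    mem_of_top hx (AlgHom.id ℂ E) (D := (adjoin M (range ![x 2, x 3])).restrictScalars ℂ) (by
      rintro _ ⟨j, rfl⟩
      fin_cases j
      exacts [IntermediateField.algebraMap_mem _ (m 0), IntermediateField.algebraMap_mem _ (m 1),
        IntermediateField.subset_adjoin M _ ⟨0, rfl⟩, IntermediateField.subset_adjoin M _ ⟨1, rfl⟩]) z)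
  have h7 := bnum_pb (inc M E F') [mx1 M ![x 2, x 3], mx1 M ![x 2, x 3]]
  rw [List.map_cons, List.map_singleton, ← hc.bnum_eq, bnum_swap, ← hc.bnum_eq, hld, h4,
    deg_tower] at h7
  have h8 : bnum [mx1 M ![x 2, x 3], mx1 M ![x 2, x 3]] = 1 := by
    refine le_antisymm h6 (not_lt.1 fun h => ?_)
    have := mul_nonpos_of_nonneg_of_nonpos (Nat.cast_nonneg (α := ℤ) (finrank E F'))
      (Int.lt_add_one_iff.1 (show _ < (0 : ℤ) + 1 from h))
    omega
  rw [h8, mul_one] at h7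
  refine ⟨by exact_mod_cast h7.symm, fun c d h => ?_⟩
  have h9 : up M (nm E Ω (pb ι c)) = nm E Ω (up M (pb ι c)) := pb_injective (inc M E Ω) (by
    rw [pb_up (inc M E Ω) (inc ℂ E Ω) fun _ => rfl, pb_nm, pb_nm, map_sum]
    exact Finset.sum_congr rfl fun p _ => (pb_up (sh M p) (sh ℂ p) (fun _ => rfl) _).symm)
  have h10 := (h.up M).bnum_eq [mx1 M ![x 2, x 3]]
  rw [h9, bnum_nm p₀, map_zsmul, hg, bnum_zsmul, h8, mul_one, List.map_singleton, bnum_swap,
    ← hc.bnum_eq, bnum_swap, hld] at h10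
  exact h10.symm

omit [FiniteDimensional E Ω] [IsGalois E Ω] [Fintype (F' →ₐ[E] Ω)] in
theorem sh_inj (hs : adjoin E {s} = ⊤) : Function.Injective fun p : F' →ₐ[E] Ω => p s :=
  fun _ _ h => ext_of_top hs (by rintro _ rfl; exact h)

omit [FiniteDimensional E Ω] [IsGalois E Ω] [Fintype (F' →ₐ[E] Ω)] in
theorem onL_sh (hy : OnL (fun j => ι (S.y j)) (fun j => algebraMap E F' (x j)) s)
    (p : F' →ₐ[E] Ω) :
    OnL (fun j => ((sh ℂ p).comp ι) (S.y j)) (fun j => algebraMap E Ω (x j)) (p s) := by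
  simpa using hy.map (p : F' →+* Ω)

theorem nm_oP (hΓ : Γ.IsHomogeneous 4) (hN : NoL Γ) (hi : AlgebraicIndependent ℂ x)
    (hs : adjoin E {s} = ⊤) (hy : OnL (fun j => ι (S.y j)) (fun j => algebraMap E F' (x j)) s)
    (p₀ : F' →ₐ[E] Ω) (h4 : finrank E F' = 4) :
    Lin (nm E Ω (pb ι (oP S.P))) (4 • mx1 ℂ (p5 x)) := by
  have hI : Fintype.card (F' →ₐ[E] Ω) = 4 := by rw [← Nat.card_eq_fintype_card, card_sh p₀, h4]
  have hc := aeval_vv_ne hΓ hN hi
  have h1 := sum_mxf hN (u := uu fun j => algebraMap E Ω (x j))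
    (v := vv fun j => algebraMap E Ω (x j)) ⟨(0, 1), by simp [wd_eq]⟩ hI
    (c := inc ℂ E Ω (aeval (vv x) Γ)) ((map_ne_zero _).2 hc)
    (map_aeval_vv (inc ℂ E Ω) x ▸ eq_prod hΓ hI (sh_inj hs) fun p => root_of hΓ (onL_sh hy p))
  obtain ⟨n, hn⟩ := exists_prod (E := E) (Ω := Ω) (ι (S.y 0))
  have h0 : ∀ p : F' →ₐ[E] Ω, p (ι (S.y 0)) ≠ 0 := fun p =>
    (map_ne_zero p).2 ((map_ne_zero ι).2 (S.y_ne 0))
  have hn0 : n ≠ 0 := fun h => Finset.prod_ne_zero_iff.2 (fun p _ => h0 p)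
    (by rw [← hn, h, map_zero])
  refine ⟨n / aeval (vv x) Γ, div_ne_zero hn0 hc, pb_injective (inc ℂ E Ω) ?_⟩
  rw [pb_nm, pr_div hn0 hc, map_add, map_sub, map_nsmul, pb_mx1, pb_pr, pb_pr,
    show (fun i => inc ℂ E Ω (p5 x i)) = _ from funext (map_p5 (algebraMap E Ω) x), ← mxf_wd, ← h1,
    show inc ℂ E Ω n = _ from hn, pr_prod _ fun p _ => h0 p, add_add_sub_cancel,
    ← Finset.sum_add_distrib]
  refine Finset.sum_congr rfl fun p _ => ?_
  rw [pb_pb, Br.pb_oP]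
  exact (onL_sh hy p).mxf_eq (h0 p)

/-- **NORM** -/
theorem nm_lin (hP : PicStmt) (hΓ : Γ.IsHomogeneous 4) (hN : NoL Γ) (hd : dim ℂ F = 2)
    (h4 : bnum [oP S.P, oP S.P] = 4) (hi : AlgebraicIndependent ℂ x)
    (hx : adjoin ℂ (range x) = ⊤) (hs : adjoin E {s} = ⊤)
    (hy : OnL (fun j => ι (S.y j)) (fun j => algebraMap E F' (x j)) s) (p₀ : F' →ₐ[E] Ω)
    {c : BD ℂ F} (hc : c ∈ On S.P) :
    Lin (nm E Ω (pb ι c)) (bnum [c, oP S.P] • mx1 ℂ (p5 x)) := by
  obtain ⟨h1, h2⟩ := deg_test hΓ hN hd h4 hi hx hs hy p₀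
  have h3 : nm E Ω (pb ι (oP S.P)) ∈ On (grass hi hx).P :=
    (nm_oP hΓ hN hi hs hy p₀ h1).mem_On (nsmul_mem Br.oP_mem 4)
  obtain ⟨N, hN1⟩ := Br.serre hc
  obtain ⟨N', hN2⟩ := Br.serre (neg_mem hc)
  have h5 := On_of_add (P := (grass hi hx).P) (free_nm (E := E) (Ω := Ω) ((hN1 N le_rfl).pb ι))
    (free_nm (E := E) (Ω := Ω) ((hN2 N' le_rfl).pb ι)) (by
      rw [← map_add, ← map_add, show c + N • oP S.P + (-c + N' • oP S.P) = (N + N') • oP S.P by
        rw [add_nsmul]; abel, map_nsmul, map_nsmul]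
      exact nsmul_mem h3 _)
  rw [map_add, map_add, map_nsmul, map_nsmul] at h5
  obtain ⟨d, h6⟩ := hP E (grass hi hx) _ ((AddSubgroup.add_mem_cancel_right _ (nsmul_mem h3 N)).1 h5)
  exact h2 c d h6 ▸ h6

end Crest.Agent.X262.Bv3
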