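import Crest.Agent.X262.Bv3.Val
import Crest.Agent.X262.Lin62.Bez
import Crest.Agent.X262.Wd54.Gx
import Crest.Agent.X262.Brg.Main

/-!
# Row 262, G4 / BV (helper3), part 2: the line with affine Plücker coordinates `x`

* `uu x`, `vv x`, `p5 x`, `OnL y x s` : the frame, the Plücker point, the point with parameter `s`;
* `grass`      : the Grassmannian as a hypersurface;
* `inj_of_gen` : two fields which generate a field of the sum of the dimensions are independent.
-/

set_option autoImplicit false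
set_option linter.unusedSectionVars false

open MvPolynomial

noncomputable section

namespace Crest.Agent.X262.Bv3

open Crest.Agent.X277 Crest.Agent.X277.Lef Crest.Agent.X277.BD Crest.Agent.X277.BD.Cyc
open Crest.Agent.X262.St91 Crest.Agent.X262.Geo Crest.Agent.X262.Lin62
open Crest.Agent.X262.Top (Hyp)
open Crest.Agent.X262.Brg.Hyp0 Crest.Agent.X262.Brg.Cubic
open IntermediateField (adjoin)
open Set (range)

attribute [local irreducible] mxf

variable {Γ : MvPolynomial (Fin 4) ℂ} {K L : Type} [Field K] [Field L]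

/-- the first vector of the frame -/
def uu (x : Fin 4 → K) : Fin 4 → K := ![1, 0, -x 2, -x 3]

/-- the second vector of the frame -/
def vv (x : Fin 4 → K) : Fin 4 → K := ![0, 1, x 0, x 1]

/-- the affine Plücker point -/
def p5 {K : Type} [CommRing K] (x : Fin 4 → K) : Fin 5 → K :=
  ![x 0, x 1, x 2, x 3, x 0 * x 3 - x 1 * x 2]

/-- `y` is the point of the line `x` with parameter `s` -/
def OnL (y x : Fin 4 → K) (s : K) : Prop := ∀ j, y j = y 0 * (uu x + s • vv x) j

theorem map_uu (ρ : K →+* L) (x : Fin 4 → K) (j : Fin 4) :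
    ρ (uu x j) = uu (fun i => ρ (x i)) j := by fin_cases j <;> simp [uu]

theorem map_vv (ρ : K →+* L) (x : Fin 4 → K) (j : Fin 4) :
    ρ (vv x j) = vv (fun i => ρ (x i)) j := by fin_cases j <;> simp [vv]

theorem map_p5 (ρ : K →+* L) (x : Fin 4 → K) (j : Fin 5) :
    ρ (p5 x j) = p5 (fun i => ρ (x i)) j := by fin_cases j <;> simp [p5]

theorem OnL.map {y x : Fin 4 → K} {s : K} (h : OnL y x s) (ρ : K →+* L) :
    OnL (fun j => ρ (y j)) (fun j => ρ (x j)) (ρ s) := fun j => by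
  have h1 := congrArg ρ (h j)
  simpa only [map_mul, Pi.add_apply, Pi.smul_apply, smul_eq_mul, map_add, map_uu, map_vv] using h1

theorem OnL.div {y x : Fin 4 → K} {s : K} (h : OnL y x s) (h0 : y 0 ≠ 0) :
    y 1 / y 0 = s ∧ y 2 / y 0 = -x 2 + s * x 0 ∧ y 3 / y 0 = -x 3 + s * x 1 := by
  refine ⟨?_, ?_, ?_⟩ <;> rw [div_eq_iff h0, mul_comm]
  · simpa [uu, vv] using h 1
  · simpa [uu, vv] using h 2
  · simpa [uu, vv] using h 3

theorem wd_eq (x : Fin 4 → K) (i j : Fin 4) : wd (uu x) (vv x) (i, j) =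
    !![0, 1, x 0, x 1; -1, 0, x 2, x 3; -x 0, -x 2, 0, x 0 * x 3 - x 1 * x 2;
      -x 1, -x 3, -(x 0 * x 3 - x 1 * x 2), 0] i j := by
  fin_cases i <;> fin_cases j <;> simp [wd, uu, vv] <;> ring

theorem not_par (x : Fin 4 → K) : ¬ Par (uu x) (vv x) := fun h => by simpa [uu, vv] using h 0 1

section

variable {k : Type} [Field k] [Algebra k K]

theorem mxf_mul {ι : Type} [Fintype ι] {s : ι → K} (h0 : ∃ i, s i ≠ 0) {δ : K} (hδ : δ ≠ 0) :
    mxf k (fun i => δ * s i) = mxf k s + pr k δ := by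
  refine (eq_mxf (fun i => ?_) fun V => ?_).symm
  · rw [mem_Sec_add_pr hδ, mul_div_cancel_left₀ _ hδ]
    exact mem_Sec_mxf s i
  · obtain ⟨i, hi⟩ := exists_val_mxf (k := k) h0 V
    exact ⟨i, by rw [map_mul, hi, val_add, val_pr hδ, mul_comm]⟩

theorem OnL.mxf_eq {y x : Fin 4 → K} {s : K} (h : OnL y x s) (h0 : y 0 ≠ 0) :
    mxf k y = mxf k (uu x + s • vv x) + pr k (y 0) := by
  rw [← mxf_mul ⟨0, by simp [uu, vv]⟩ h0]
  exact congrArg _ (funext h)

theorem mxf_wd (x : Fin 4 → K) : mxf k (wd (uu x) (vv x)) = mx1 k (p5 x) := by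
  refine le_antisymm (mxf_le ⟨(0, 1), by simp [wd_eq]⟩ fun ⟨i, j⟩ => ?_)
    (mxf_le ⟨0, by simp⟩ fun i => ?_)
  · have h := nonneg_iff.1 (mx1_nonneg (k := k) (p5 x))
    have h0 : x 0 ∈ _ := mem_mx1 (k := k) (p5 x) 0
    have h1 : x 1 ∈ _ := mem_mx1 (k := k) (p5 x) 1
    have h2 : x 2 ∈ _ := mem_mx1 (k := k) (p5 x) 2
    have h3 : x 3 ∈ _ := mem_mx1 (k := k) (p5 x) 3
    have h4 : x 0 * x 3 - x 1 * x 2 ∈ _ := mem_mx1 (k := k) (p5 x) 4
    rw [wd_eq]
    fin_cases i <;> fin_cases j <;>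
      first | exact zero_mem _ | assumption | exact neg_mem (by assumption)
  · have h := fun i j => wd_eq x i j ▸ mem_Sec_mxf (k := k) (wd (uu x) (vv x)) (i, j)
    fin_cases i
    exacts [h 0 1, h 0 2, h 0 3, h 1 2, h 1 3, h 2 3]

theorem dim_of_ind [CharZero k] {n : ℕ} {t : Fin n → K} (hi : AlgebraicIndependent k t)
    (ht : adjoin k (range t) = ⊤) : dim k K = n := by
  have := eft_of_top ht
  have h := (isTranscendenceBasis_iff_algebraicIndependent_isAlgebraic.2
    ⟨hi, alg_of_top ht⟩).cardinalMk_eq_trdeg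
  rw [trdeg_eq_dim, Cardinal.mk_fin] at h
  exact_mod_cast h.symm

end

variable [Algebra ℂ K] [Algebra ℂ L]

theorem OnL.root (hΓ : Γ.IsHomogeneous 4) {y x : Fin 4 → K} {s : K} (h : OnL y x s) (h0 : y 0 ≠ 0)
    (h1 : aeval y Γ = 0) : aeval (uu x + s • vv x) Γ = 0 := by
  rw [show y = y 0 • (uu x + s • vv x) from funext h, aeval_smul hΓ] at h1
  exact (mul_eq_zero.1 h1).resolve_left (pow_ne_zero _ h0)

theorem map_aeval_vv (ρ : K →ₐ[ℂ] L) (x : Fin 4 → K) :
    ρ (aeval (vv x) Γ) = aeval (vv fun i => ρ (x i)) Γ := by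
  rw [← AlgHom.comp_apply, comp_aeval]
  exact congrArg (fun z => aeval z Γ) (funext (map_vv (ρ : K →+* L) x))

theorem aeval_vv_ne (hΓ : Γ.IsHomogeneous 4) (h : NoL Γ) {x : Fin 4 → K}
    (hx : AlgebraicIndependent ℂ x) : aeval (vv x) Γ ≠ 0 := fun h0 => by
  have h1 : aeval (![0, 1, X 0, X 1] : Fin 4 → MvPolynomial (Fin 4) ℂ) Γ = 0 := hx (by
    rw [← AlgHom.comp_apply, comp_aeval, map_zero, ← h0]
    congr 2
    funext j
    fin_cases j <;> simp [vv])
  have h2 : lnP Γ (![0, 1, 0, 0] : Fin 4 → ℂ) ![0, 0, 0, 1] = 0 := Polynomial.funext fun t => by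
    have h3 := congrArg (aeval (![0, t, 0, 0] : Fin 4 → ℂ)) h1
    rw [← AlgHom.comp_apply, comp_aeval, map_zero] at h3
    rw [eval_lnP, Polynomial.eval_zero]
    refine Eq.trans (congrArg (fun z => aeval z Γ) (funext fun j => ?_)) h3
    fin_cases j <;> simp
  exact lnP_ne h hΓ (fun h4 => by simpa using h4 1 3) h2

theorem plq_hom : plq.IsHomogeneous 2 :=
  (((isHomogeneous_X ℂ 0).mul (isHomogeneous_X ℂ 5)).sub
    ((isHomogeneous_X ℂ 1).mul (isHomogeneous_X ℂ 4))).add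
    ((isHomogeneous_X ℂ 2).mul (isHomogeneous_X ℂ 3))

theorem plq_sm : Sm plq := fun p hp _ => by
  by_contra h
  push Not at h
  have h0 := h 0
  have h1 := h 1
  have h2 := h 2
  have h3 := h 3
  have h4 := h 4
  have h5 := h 5
  simp [plq, pderiv_X] at h0 h1 h2 h3 h4 h5
  exact hp (funext fun i => by fin_cases i <;> assumption)

theorem deh_plq : deh plq = X 4 - (X 0 * X 3 - X 1 * X 2) := by
  have h : ∀ i : Fin 5, deh (X i.succ : MvPolynomial (Fin 6) ℂ) = X i := fun i => by simp [deh]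
  have h0 : deh (X 0 : MvPolynomial (Fin 6) ℂ) = 1 := by simp [deh]
  rw [plq, map_add, map_sub, map_mul, map_mul, map_mul, h0]
  rw [show (5 : Fin 6) = (4 : Fin 5).succ from rfl, show (4 : Fin 6) = (3 : Fin 5).succ from rfl,
    show (3 : Fin 6) = (2 : Fin 5).succ from rfl, show (2 : Fin 6) = (1 : Fin 5).succ from rfl,
    show (1 : Fin 6) = (0 : Fin 5).succ from rfl, h, h, h, h, h]
  ring

theorem gp_plq {x : Fin 4 → K} (hx : AlgebraicIndependent ℂ x) :
    GP plq (Fin.cons 1 (p5 x) : Fin 6 → K) := by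
  refine gp_of_ker (by norm_num) le_rfl plq_hom plq_sm fun q => ?_
  rw [deh_plq]
  refine ⟨fun h => ?_, ?_⟩
  · have h1 : aeval (p5 (X : Fin 4 → MvPolynomial (Fin 4) ℂ)) q = 0 := hx (by
      rw [← AlgHom.comp_apply, comp_aeval, map_zero, ← h]
      congr 2
      funext j
      fin_cases j <;> simp [p5])
    let π := Ideal.Quotient.mkₐ ℂ
      (Ideal.span {(X 4 - (X 0 * X 3 - X 1 * X 2) : MvPolynomial (Fin 5) ℂ)})
    have h2 : (aeval fun i : Fin 4 => π (X i.castSucc)).comp (aeval (p5 X)) = π := by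
      ext1 j
      have h3 : π (X 0 * X 3 - X 1 * X 2) = π (X 4) :=
        (Ideal.Quotient.eq.2 (Ideal.mem_span_singleton_self _)).symm
      fin_cases j
      all_goals simp only [AlgHom.comp_apply, aeval_X]
      exacts [aeval_X _ _, aeval_X _ _, aeval_X _ _, aeval_X _ _, by simpa [p5] using h3]
    have h4 := DFunLike.congr_fun h2 q
    rw [AlgHom.comp_apply, h1, map_zero] at h4
    exact Ideal.mem_span_singleton.1 (Ideal.Quotient.eq_zero_iff_mem.1 h4.symm)
  · rintro ⟨r, rfl⟩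
    simp [p5]

/-- the Grassmannian -/
def grass {x : Fin 4 → K} (hi : AlgebraicIndependent ℂ x) (hx : adjoin ℂ (range x) = ⊤) :
    Hyp 5 plq K :=
  Brg.Main.hypOf plq_hom le_rfl plq_sm (x := p5 x)
    (top_unique (hx ▸ IntermediateField.adjoin.mono _ _ _ (by
      rintro _ ⟨j, rfl⟩
      exact ⟨j.castSucc, by fin_cases j <;> rfl⟩))) (gp_plq hi)

theorem oP_grass {x : Fin 4 → K} (hi : AlgebraicIndependent ℂ x) (hx : adjoin ℂ (range x) = ⊤) :
    Br.oP (grass hi hx).P = mx1 ℂ (p5 x) := rfl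

theorem mem_of_top {k : Type} [Field k] [Algebra k K] [Algebra k L] {T : Set K}
    (h : adjoin k T = ⊤) (α : K →ₐ[k] L) {D : IntermediateField k L} (h1 : ∀ t ∈ T, α t ∈ D)
    (z : K) : α z ∈ D :=
  IntermediateField.adjoin_le_iff (T := D.comap α).2 h1 (h ▸ IntermediateField.mem_top)

theorem ext_of_top {k : Type} [Field k] [Algebra k K] [Algebra k L] {T : Set K}
    (h : adjoin k T = ⊤) {α β : K →ₐ[k] L} (h1 : ∀ t ∈ T, α t = β t) : α = β :=
  AlgHom.ext fun z => by
    have h2 : z ∈ adjoin k T := h ▸ IntermediateField.mem_top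
    induction h2 using IntermediateField.adjoin_induction with
    | mem t ht => exact h1 t ht
    | algebraMap c => rw [α.commutes, β.commutes]
    | add a b _ _ ha hb => rw [map_add, map_add, ha, hb]
    | inv a _ ha => rw [map_inv₀, map_inv₀, ha]
    | mul a b _ _ ha hb => rw [map_mul, map_mul, ha, hb]

theorem adjoin_y {N : ℕ} {G : MvPolynomial (Fin (N + 1)) ℂ} (S : Hyp N G K) :
    adjoin ℂ (range fun j => S.y j / S.y 0) = ⊤ := eq_top_iff.2 fun f _ => by
  obtain ⟨a, ha, c, hc, -, rfl⟩ := S.frac f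
  exact div_mem (IntermediateField.algebra_adjoin_le_adjoin _ _ ha)
    (IntermediateField.algebra_adjoin_le_adjoin _ _ hc)

theorem alg_of_mem [Algebra K L] [Algebra.IsAlgebraic K L] {D : IntermediateField ℂ L}
    (h : ∀ z, algebraMap K L z ∈ D) : Algebra.IsAlgebraic D L := ⟨fun z =>
  (Algebra.IsAlgebraic.isAlgebraic (R := K) z).ringHom_of_comp_eq
    ((algebraMap K L).codRestrict D h) (RingHom.id L) (RingHom.injective _) rfl⟩

theorem inj_of_gen {A B : Type} [Field A] [Field B] [Algebra ℂ A] [Algebra ℂ B]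
    [Algebra.EssFiniteType ℂ A] [Algebra.EssFiniteType ℂ B] [Algebra.EssFiniteType ℂ L]
    (a : A →ₐ[ℂ] L) (b : B →ₐ[ℂ] L) (hd : dim ℂ L = dim ℂ A + dim ℂ B)
    (H : ∀ D : IntermediateField ℂ L, (∀ z, a z ∈ D) → (∀ z, b z ∈ D) → Algebra.IsAlgebraic D L) :
    Function.Injective (Algebra.TensorProduct.productMap a b) := by
  obtain ⟨s, hs⟩ := Wd.exists_tb ℂ A
  obtain ⟨t, ht⟩ := Wd.exists_tb ℂ B
  refine Wd.inj_of_algInd hs.isAlgebraic ht.isAlgebraic ?_
  let K0 := adjoin ℂ (range (Sum.elim (a ∘ s) (b ∘ t)))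
  have h1 : Algebra.IsAlgebraic (algebraicClosure K0 L) L :=
    H ((algebraicClosure K0 L).restrictScalars ℂ)
      (fun z => mem_algebraicClosure_iff.2 (Wd.isAlg_map a a.injective (R := K0.toSubalgebra)
        (by rintro _ ⟨_, ⟨i, rfl⟩, rfl⟩; exact IntermediateField.subset_adjoin _ _ ⟨.inl i, rfl⟩)
        (hs.isAlgebraic.1 z)))
      fun z => mem_algebraicClosure_iff.2 (Wd.isAlg_map b b.injective (R := K0.toSubalgebra)
        (by rintro _ ⟨_, ⟨i, rfl⟩, rfl⟩; exact IntermediateField.subset_adjoin _ _ ⟨.inr i, rfl⟩)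
        (ht.isAlgebraic.1 z))
  have h2 := IntermediateField.isAlgebraic_adjoin_iff_top.1
    (Algebra.IsAlgebraic.trans K0 (algebraicClosure K0 L) L)
  refine (Algebra.IsAlgebraic.isTranscendenceBasis_of_le_trdeg_of_finite ℂ _ ?_).1
  rw [trdeg_eq_dim, hd]
  simp

end Crest.Agent.X262.Bv3
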