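import Crest.Agent.X262.Bv3.Deg
import Crest.Agent.X277.Cns.Lift

/-!
# Row 262, G4 / BV (helper3), part 4: the Beauville involution

* `exists_lift` : two different points of the generic line form a generic point of `S × S`;
* `fix_le`      : the unordered residual pair is rational over the unordered pair;
* `bv_of`       : `PicStmt → DegStmt → BvStmt`.
-/

set_option autoImplicit false
set_option linter.unusedSectionVars false

open MvPolynomial

noncomputable section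

namespace Crest.Agent.X262.Bv3

open Crest.Agent.X277 Crest.Agent.X277.Lef Crest.Agent.X277.BD Crest.Agent.X277.BD.Cyc
open Crest.Agent.X262.St91 Crest.Agent.X262.Geo Crest.Agent.X262.Lin62 Crest.Agent.X262.Gal71
open Crest.Agent.X277.BD.Br (On oP At)
open Crest.Agent.X262.Top (Hyp)
open Crest.Agent.X262.Brg.Hyp0 Crest.Agent.R274.Prod1_134
open IntermediateField (adjoin)
open Set (range)
open Module (finrank)

attribute [local irreducible] mxf

variable {Γ : MvPolynomial (Fin 4) ℂ}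

section Two

variable {K : Type} [Field K] {y y' x x' : Fin 4 → K} {s s' : K}

theorem coord_of_two (h : OnL y x s) (h' : OnL y' x s') (h0 : y 0 ≠ 0) (h0' : y' 0 ≠ 0)
    (hs : s ≠ s') : x = ![(y 2 / y 0 - y' 2 / y' 0) / (s - s'), (y 3 / y 0 - y' 3 / y' 0) / (s - s'),
      (s' * (y 2 / y 0) - s * (y' 2 / y' 0)) / (s - s'),
      (s' * (y 3 / y 0) - s * (y' 3 / y' 0)) / (s - s')] := by
  obtain ⟨-, e2, e3⟩ := h.div h0
  obtain ⟨-, f2, f3⟩ := h'.div h0'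
  rw [e2, e3, f2, f3]
  funext j
  fin_cases j <;> exact eq_div_of_mul_eq (sub_ne_zero.2 hs) (by dsimp; ring)

theorem wd_onL (h : OnL y x s) (h' : OnL y' x s') (ij : Fin 4 × Fin 4) :
    wd y y' ij = y 0 * y' 0 * (s' - s) * wd (uu x) (vv x) ij := by
  rw [wd, wd, h ij.1, h ij.2, h' ij.1, h' ij.2]
  simp only [Pi.add_apply, Pi.smul_apply, smul_eq_mul]
  ring

/-- the affine Plücker coordinates of the line through two points -/
def xw (y y' : Fin 4 → K) : Fin 4 → K := ![wd y y' (0, 2) / wd y y' (0, 1),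
  wd y y' (0, 3) / wd y y' (0, 1), wd y y' (1, 2) / wd y y' (0, 1), wd y y' (1, 3) / wd y y' (0, 1)]

theorem onL_xw (h0 : y 0 ≠ 0) (hw : wd y y' (0, 1) ≠ 0) : OnL y (xw y y') (y 1 / y 0) := fun j => by
  fin_cases j <;> simp [uu, vv, xw] <;> field_simp <;> simp only [wd] <;> ring

theorem xw_swap : xw y' y = xw y y' := by
  have h : ∀ ij, wd y' y ij = -wd y y' ij := fun ij => by simp only [wd]; ring
  simp only [xw, h, neg_div_neg_eq]

theorem map_xw {L : Type} [Field L] (ρ : K →+* L) (j : Fin 4) :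
    ρ (xw y y' j) = xw (fun i => ρ (y i)) (fun i => ρ (y' i)) j := by
  fin_cases j <;> simp [xw, wd]

variable [Algebra ℂ K]

theorem exists_fac {A Q : Type} [Field A] [Field Q] [Algebra ℂ A] [Algebra ℂ Q] (j : Q →ₐ[ℂ] K)
    (α : A →ₐ[ℂ] K) (h : ∀ z, α z ∈ j.range) : ∃ e : A →ₐ[ℂ] Q, j.comp e = α :=
  ⟨(AlgEquiv.ofInjective j j.injective).symm.toAlgHom.comp (α.codRestrict j.range h),
    AlgHom.ext fun z => congrArg Subtype.val
      ((AlgEquiv.ofInjective j j.injective).apply_symm_apply ⟨α z, h z⟩)⟩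

theorem li_y (hΓ : Γ.IsHomogeneous 4) (S : Hyp 3 Γ K) : LinearIndependent ℂ ![S.y 0, S.y 1] := by
  refine LinearIndependent.pair_iff.2 fun a b h => ?_
  have h1 : (C a * X 0 + C b * X 1 : MvPolynomial (Fin 4) ℂ).IsHomogeneous 1 :=
    (isHomogeneous_C_mul_X a 0).add (isHomogeneous_C_mul_X b 1)
  have h2 := (S.ker _ _ h1).1 (by simpa [Algebra.smul_def] using h)
  have h3 : (C a * X 0 + C b * X 1 : MvPolynomial (Fin 4) ℂ) = 0 := by_contra fun h0 => by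
    have h4 := (totalDegree_le_of_dvd_of_isDomain h2 h0).trans h1.totalDegree_le
    rw [hΓ.totalDegree (ne_zero_of_dvd_ne_zero h0 h2)] at h4
    omega
  exact ⟨by simpa using congrArg (eval ![1, 0, 0, 0]) h3,
    by simpa using congrArg (eval ![0, 1, 0, 0]) h3⟩

end Two

section Core

variable {F E F' L Ω : Type} [Field F] [Field E] [Field F'] [Field L] [Field Ω] [Algebra ℂ F]
  [Algebra ℂ E] [Algebra ℂ F'] [Algebra ℂ L] [Algebra ℂ Ω] [Algebra E F'] [Algebra E L]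
  [Algebra E Ω] [IsScalarTower ℂ E F'] [IsScalarTower ℂ E L] [IsScalarTower ℂ E Ω]
  [Algebra.EssFiniteType ℂ F] [FiniteDimensional E Ω] [IsGalois E Ω] [Fintype (F' →ₐ[E] Ω)]
  {S : Hyp 3 Γ F} {x : Fin 4 → E} {ι : F →ₐ[ℂ] F'} {s : F'} {κ κ' : F' →ₐ[E] L}
  {τ : L →ₐ[E] L}

theorem exists_lift (hd : dim ℂ F = 2) (hi : AlgebraicIndependent ℂ x)
    (hx : adjoin ℂ (range x) = ⊤) (hs : adjoin E {s} = ⊤)
    (hy : OnL (fun j => ι (S.y j)) (fun j => algebraMap E F' (x j)) s)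
    (hPF : IsPF ((sh ℂ κ).comp ι) ((sh ℂ κ').comp ι)) {p q : F' →ₐ[E] Ω} (hpq : p ≠ q) :
    ∃ ρ : L →ₐ[E] Ω, ρ.comp κ = p ∧ ρ.comp κ' = q := by
  have := eft_of_top hx
  have : CharZero E := charZero_of_injective_algebraMap (algebraMap ℂ E).injective
  have : Algebra.EssFiniteType ℂ Ω := .comp ℂ E Ω
  have h0 : ∀ r : F' →ₐ[E] Ω, ((sh ℂ r).comp ι) (S.y 0) ≠ 0 := fun r => (map_ne_zero _).2 (S.y_ne 0)
  have hne : p s ≠ q s := fun h => hpq (sh_inj hs h)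
  have h1 := coord_of_two (onL_sh hy p) (onL_sh hy q) (h0 p) (h0 q) hne
  have h2 := inj_of_gen ((sh ℂ p).comp ι) ((sh ℂ q).comp ι) (by
    rw [Loc.dim_tower ℂ E Ω, dim_of_ind hi hx, Loc.dim_eq_zero_iff.2 inferInstance, hd])
    fun D h3 h4 => alg_of_mem (K := E) (mem_of_top hx (inc ℂ E Ω) (by
      have h5 : p s ∈ D := ((onL_sh hy p).div (h0 p)).1 ▸ div_mem (h3 _) (h3 _)
      have h6 : q s ∈ D := ((onL_sh hy q).div (h0 q)).1 ▸ div_mem (h4 _) (h4 _)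
      rintro _ ⟨j, rfl⟩
      rw [show inc ℂ E Ω (x j) = _ from congrFun h1 j]
      fin_cases j
      exacts [div_mem (sub_mem (div_mem (h3 _) (h3 _)) (div_mem (h4 _) (h4 _))) (sub_mem h5 h6),
        div_mem (sub_mem (div_mem (h3 _) (h3 _)) (div_mem (h4 _) (h4 _))) (sub_mem h5 h6),
        div_mem (sub_mem (mul_mem h6 (div_mem (h3 _) (h3 _))) (mul_mem h5 (div_mem (h4 _) (h4 _))))
          (sub_mem h5 h6),
        div_mem (sub_mem (mul_mem h6 (div_mem (h3 _) (h3 _))) (mul_mem h5 (div_mem (h4 _) (h4 _))))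
          (sub_mem h5 h6)]))
  let ρ := Cns.pfLift hPF _ _ h2
  have h3 := (onL_sh hy κ).map (ρ : L →+* Ω)
  have h4 := (onL_sh hy κ').map (ρ : L →+* Ω)
  simp only [RingHom.coe_coe, ρ, Cns.pfLift_left] at h3
  simp only [RingHom.coe_coe, ρ, Cns.pfLift_right] at h4
  have h5 := (h3.div (h0 p)).1.symm.trans ((onL_sh hy p).div (h0 p)).1
  have h6 := (h4.div (h0 q)).1.symm.trans ((onL_sh hy q).div (h0 q)).1
  rw [h5] at h3
  rw [h6] at h4
  have h7 : ρ.comp (inc ℂ E L) = inc ℂ E Ω := ext_of_top hx (by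
    rintro _ ⟨j, rfl⟩
    exact congrFun ((coord_of_two h3 h4 (h0 p) (h0 q) hne).trans h1.symm) j)
  exact ⟨⟨ρ, DFunLike.congr_fun h7⟩, sh_inj hs h5, sh_inj hs h6⟩

theorem fix_le (hs : adjoin E {s} = ⊤) (hPF : IsPF ((sh ℂ κ).comp ι) ((sh ℂ κ').comp ι))
    (h1 : τ.comp κ = κ') (h2 : τ.comp κ' = κ) (hne : κ ≠ κ') {ρ ρ' : L →ₐ[E] Ω}
    (H : ∀ p, (p = ρ.comp κ ∨ p = ρ.comp κ') ↔ ¬ (p = ρ'.comp κ ∨ p = ρ'.comp κ')) {a : L}
    (ha : τ a = a) : ∃ b, τ b = b ∧ ρ b = ρ' a := by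
  let T : IntermediateField E L := (AlgHom.equalizer τ (AlgHom.id E L)).toIntermediateField
    fun z hz => show τ z⁻¹ = z⁻¹ by rw [map_inv₀, show τ z = z from hz]
  have e1 : τ (κ s) = κ' s := DFunLike.congr_fun h1 s
  have e2 : τ (κ' s) = κ s := DFunLike.congr_fun h2 s
  have h3 : ∀ g ∈ (T.map ρ).fixingSubgroup, ∀ p, (p = ρ.comp κ ∨ p = ρ.comp κ') →
      (g • p = ρ.comp κ ∨ g • p = ρ.comp κ') := fun g hg p hp => by
    rw [IntermediateField.mem_fixingSubgroup_iff] at hg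
    have h4 := hg _ ⟨κ s + κ' s, show τ _ = _ by rw [map_add, e1, e2, add_comm]; rfl, rfl⟩
    have h5 := hg _ ⟨κ s * κ' s, show τ _ = _ by rw [map_mul, e1, e2, mul_comm]; rfl, rfl⟩
    change g (ρ _) = ρ _ at h4 h5
    simp only [map_add, map_mul] at h4 h5
    have h6 : (g (p s) - ρ (κ s)) * (g (p s) - ρ (κ' s)) = 0 := by
      rcases hp with rfl | rfl <;> rw [AlgHom.comp_apply]
      · linear_combination g (ρ (κ s)) * h4 - h5
      · linear_combination g (ρ (κ' s)) * h4 - h5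
    exact (mul_eq_zero.1 h6).imp (fun h => sh_inj hs (sub_eq_zero.1 h))
      fun h => sh_inj hs (sub_eq_zero.1 h)
  have hx : ∀ α β : L →ₐ[E] Ω, α.comp κ = β.comp κ → α.comp κ' = β.comp κ' → α a = β a :=
    fun α β e e' => DFunLike.congr_fun (Cns.pf_ext hPF (γ := sh ℂ α) (γ' := sh ℂ β)
      (fun z => DFunLike.congr_fun e (ι z)) fun z => DFunLike.congr_fun e' (ι z)) a
  suffices h : ρ' a ∈ T.map ρ from h
  rw [← IsGalois.fixedField_fixingSubgroup (T.map ρ), IntermediateField.mem_fixedField_iff]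
  intro g hg
  have h7 : ∀ p, (p = ρ'.comp κ ∨ p = ρ'.comp κ') → (g • p = ρ'.comp κ ∨ g • p = ρ'.comp κ') :=
    fun p hp => by_contra fun h => (H p).1
      (inv_smul_smul g p ▸ h3 g⁻¹ (inv_mem hg) _ ((H _).2 h)) hp
  have h8 : g • ρ'.comp κ ≠ g • ρ'.comp κ' := fun h => hne (AlgHom.ext fun z =>
    ρ'.injective (DFunLike.congr_fun (MulAction.injective g h) z))
  rcases h7 _ (.inl rfl) with e | e <;> rcases h7 _ (.inr rfl) with e' | e'
  · exact absurd (e.trans e'.symm) h8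
  · exact hx (g • ρ') ρ' e e'
  · refine (hx (g • ρ') (ρ'.comp τ) ?_ ?_).trans (congrArg ρ' ha)
    · rw [AlgHom.comp_assoc, h1]
      exact e
    · rw [AlgHom.comp_assoc, h2]
      exact e'
  · exact absurd (e.trans e'.symm) h8

theorem core (hP : PicStmt) (hΓ : Γ.IsHomogeneous 4) (hN : NoL Γ) (hd : dim ℂ F = 2)
    (h4 : bnum [oP S.P, oP S.P] = 4) (hi : AlgebraicIndependent ℂ x)
    (hx : adjoin ℂ (range x) = ⊤) (hs : adjoin E {s} = ⊤)
    (hy : OnL (fun j => ι (S.y j)) (fun j => algebraMap E F' (x j)) s)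
    (hPF : IsPF ((sh ℂ κ).comp ι) ((sh ℂ κ').comp ι)) (h1 : τ.comp κ = κ') (h2 : τ.comp κ' = κ)
    (hne : κ ≠ κ') (ρ : L →ₐ[E] Ω) {Q : Type} [Field Q] [Algebra ℂ Q] (j : Q →ₐ[ℂ] L)
    (hj : ∀ z, τ z = z ↔ z ∈ j.range) : ∃ σ : Q ≃ₐ[ℂ] Q, ∀ γ : BD ℂ Q,
      pb j γ = pb (inc ℂ E L) (mx1 ℂ (p5 x)) → pb (σ : Q →ₐ[ℂ] Q) γ = γ ∧ ∀ c ∈ On S.P,
        ∀ C : BD ℂ Q, pb j C = pb ((sh ℂ κ).comp ι) c + pb ((sh ℂ κ').comp ι) c →
          Lin (C + pb (σ : Q →ₐ[ℂ] Q) C) (bnum [c, oP S.P] • γ) := by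
  classical
  have hI : Fintype.card (F' →ₐ[E] Ω) = 4 := by
    rw [← Nat.card_eq_fintype_card, card_sh (ρ.comp κ),
      (deg_test hΓ hN hd h4 hi hx hs hy (ρ.comp κ)).1]
  have h3 : ρ.comp κ ≠ ρ.comp κ' := fun h => hne (AlgHom.ext fun z =>
    ρ.injective (DFunLike.congr_fun h z))
  obtain ⟨p, q, hpq, h5⟩ := Finset.card_eq_two.1
    (show ({ρ.comp κ, ρ.comp κ'}ᶜ : Finset (F' →ₐ[E] Ω)).card = 2 by
      rw [Finset.card_compl, hI, Finset.card_pair h3])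
  obtain ⟨ρ', rfl, rfl⟩ := exists_lift hd hi hx hs hy hPF hpq
  have H : ∀ p, (p = ρ.comp κ ∨ p = ρ.comp κ') ↔ ¬ (p = ρ'.comp κ ∨ p = ρ'.comp κ') := fun p => by
    have h6 := Finset.ext_iff.1 h5 p
    simp only [Finset.mem_compl, Finset.mem_insert, Finset.mem_singleton] at h6
    rw [← h6, not_not]
  obtain ⟨σ, hσ⟩ := exists_fac ((sh ℂ ρ).comp j) ((sh ℂ ρ').comp j) fun z => by
    obtain ⟨b, hb, e⟩ := fix_le hs hPF h1 h2 hne H ((hj _).2 ⟨z, rfl⟩)
    obtain ⟨b, rfl⟩ := (hj b).1 hb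
    exact ⟨b, e⟩
  have hσ' : Function.Surjective σ := fun z => by
    obtain ⟨b, hb, e⟩ := fix_le hs hPF h1 h2 hne (fun p => iff_not_comm.1 (H p)) ((hj _).2 ⟨z, rfl⟩)
    obtain ⟨b, rfl⟩ := (hj b).1 hb
    exact ⟨b, ((sh ℂ ρ).comp j).injective ((DFunLike.congr_fun hσ b).trans e)⟩
  obtain ⟨e, he⟩ := exists_fac j (inc ℂ E L) fun z => (hj _).1 (τ.commutes z)
  have h7 : ∀ a : BD ℂ Q, pb ((sh ℂ ρ).comp j) (pb σ a) = pb (sh ℂ ρ') (pb j a) := fun a => by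
    rw [pb_pb, pb_pb, hσ]
  refine ⟨AlgEquiv.ofBijective σ ⟨σ.injective, hσ'⟩, fun γ hγ =>
    ⟨pb_injective ((sh ℂ ρ).comp j) ((h7 γ).trans ?_), fun c hc C hC => ?_⟩⟩
  · rw [← pb_pb, hγ, pb_sh_inc, pb_sh_inc]
  · have h8 : γ = pb e (mx1 ℂ (p5 x)) := pb_injective j (by rw [hγ, pb_pb, he])
    have h9 : C + pb σ C = pb e (nm E Ω (pb ι c)) := pb_injective ((sh ℂ ρ).comp j) (by
      rw [map_add, h7, ← pb_pb, ← pb_pb, hC, pb_pb j, he, pb_sh_inc, pb_nm,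
        ← Finset.sum_add_sum_compl {ρ.comp κ, ρ.comp κ'}, h5, Finset.sum_pair h3,
        Finset.sum_pair hpq]
      simp only [map_add, pb_pb]
      rfl)
    rw [h8, ← map_zsmul]
    exact h9 ▸ (nm_lin hP hΓ hN hd h4 hi hx hs hy (ρ.comp κ) hc).pb e

end Core

theorem bv_of (hP : PicStmt) (hD : DegStmt) : BvStmt := by
  intro Γ F L Q _ _ _ _ _ _ _ S ι τ j hq hN hPF hτ hj
  obtain ⟨hd, h4⟩ := hD Γ F S hq
  have hΓ := hq.1
  have := Wd.essFT_pf hPF
  let y : Fin 4 → L := fun i => ι (S.y i)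
  let y' : Fin 4 → L := fun i => τ (ι (S.y i))
  have h0 : y 0 ≠ 0 := (map_ne_zero ι).2 (S.y_ne 0)
  have h0' : y' 0 ≠ 0 := (map_ne_zero τ).2 h0
  have hw : wd y y' (0, 1) ≠ 0 := fun h => by
    have h1 : ((0, 1) : Fin 2 × Fin 2) = (1, 0) :=
      (hPF.indep (li_y hΓ S) (li_y hΓ S)).injective (sub_eq_zero.1 h)
    simp at h1
  have hy : OnL y (xw y y') (y 1 / y 0) := onL_xw h0 hw
  have hy' : OnL y' (xw y y') (y' 1 / y' 0) := xw_swap (y := y) (y' := y') ▸ onL_xw h0' fun h =>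
    hw (by simp only [wd] at h ⊢; linear_combination -h)
  let E := adjoin ℂ (range (xw y y'))
  let x : Fin 4 → E := fun i => ⟨xw y y' i, IntermediateField.subset_adjoin _ _ ⟨i, rfl⟩⟩
  have hx : adjoin ℂ (range x) = ⊤ := adjoin_sub _
  have hmem : ∀ (α : F →ₐ[ℂ] L) (s : L), OnL (fun i => α (S.y i)) (xw y y') s →
      ∀ D : IntermediateField E L, s ∈ D → ∀ z, α z ∈ D := fun α s h D hs =>
    mem_of_top (adjoin_y S) α (D := D.restrictScalars ℂ) (by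
      rintro _ ⟨i, rfl⟩
      rw [map_div₀, show α (S.y i) = _ from h i,
        mul_div_cancel_left₀ _ ((map_ne_zero α).2 (S.y_ne 0)), Pi.add_apply, Pi.smul_apply,
        smul_eq_mul]
      exact add_mem (map_uu (algebraMap E L) x i ▸ D.algebraMap_mem _)
        (mul_mem hs (map_vv (algebraMap E L) x i ▸ D.algebraMap_mem _)))
  have halg : ∀ (α : F →ₐ[ℂ] L) (s : L), OnL (fun i => α (S.y i)) (xw y y') s →
      ∀ z, α z ∈ algebraicClosure E L := fun α s h => hmem α s h _ (mem_algebraicClosure_iff.2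
    ⟨lnP Γ (uu x) (vv x), lnP_ne hN hΓ (not_par x), by
      rw [aeval_lnP]
      simp only [map_uu, map_vv]
      exact root_of hΓ h⟩)
  have : Algebra.IsAlgebraic E L := ⟨fun z => mem_algebraicClosure_iff.1
    (mem_of_top hPF.adjoin_eq (AlgHom.id ℂ L) (D := (algebraicClosure E L).restrictScalars ℂ) (by
      rintro _ (⟨z, rfl⟩ | ⟨z, rfl⟩)
      exacts [halg ι _ hy z, halg (τ.comp ι) _ hy' z]) z)⟩
  have : FiniteDimensional E L := Algebra.finite_of_essFiniteType_of_isAlgebraic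
  have hi : AlgebraicIndependent ℂ x := AlgebraicIndependent.of_comp E.val (by
    have := IntermediateField.isAlgebraic_adjoin_iff_top.1 ‹Algebra.IsAlgebraic E L›
    refine (Algebra.IsAlgebraic.isTranscendenceBasis_of_le_trdeg_of_finite ℂ (xw y y') ?_).1
    rw [trdeg_eq_dim, Wd.dim_pf hPF, hd]
    simp)
  have hτE : τ.comp E.val = E.val := ext_of_top hx (by
    rintro _ ⟨i, rfl⟩
    refine (map_xw (τ : L →+* L) i).trans ?_
    simp only [RingHom.coe_coe, y', hτ]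
    exact congrFun xw_swap i)
  let τ' : L →ₐ[E] L := ⟨τ, DFunLike.congr_fun hτE⟩
  let F' := adjoin E (range fun _ : Unit => y 1 / y 0)
  have hs0 : y 1 / y 0 ∈ F' := IntermediateField.subset_adjoin _ _ ⟨(), rfl⟩
  have hs : adjoin E {(⟨_, hs0⟩ : F')} = ⊤ :=
    (congrArg (adjoin E) Set.range_const.symm).trans (adjoin_sub (k := E) fun _ : Unit => y 1 / y 0)
  obtain ⟨ι', hι⟩ := exists_fac (sh ℂ F'.val) ι fun z => ⟨⟨ι z, hmem ι _ hy F' hs0 z⟩, rfl⟩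
  have hι' : (sh ℂ (τ'.comp F'.val)).comp ι' = τ.comp ι := by rw [← hι]; rfl
  obtain ⟨Ω, _, _, ⟨ρ⟩⟩ := exists_closure E L
  have : Finite (F' →ₐ[E] Ω) := inferInstance
  let _ := Fintype.ofFinite (F' →ₐ[E] Ω)
  obtain ⟨σ, hσ⟩ := core (S := S) (ι := ι') (κ := F'.val) (κ' := τ'.comp F'.val) (τ := τ') hP hΓ hN
    hd h4 hi hx hs
    (fun i => Subtype.ext (by
      have h1 : ∀ i, (ι' (S.y i) : L) = y i := fun i => DFunLike.congr_fun hι (S.y i)
      change (ι' (S.y i) : L) = ι' (S.y 0) * (F'.val (uu _ i) + y 1 / y 0 * F'.val (vv _ i))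
      rw [h1, h1, show F'.val _ = _ from map_uu (F'.val : F' →+* L) _ i,
        show F'.val _ = _ from map_vv (F'.val : F' →+* L) _ i]
      exact hy i))
    (by rw [hι, hι']; exact hPF) rfl (AlgHom.ext fun z => hτ z)
    (fun h => hw (by
      have h1 : y 1 / y 0 = τ (y 1 / y 0) := DFunLike.congr_fun h ⟨_, hs0⟩
      rw [wd_onL hy hy', show y' 1 / y' 0 = y 1 / y 0 from (h1.trans (map_div₀ τ _ _)).symm,
        sub_self, mul_zero, zero_mul]))
    ρ j hj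
  refine ⟨σ, fun γ hγ => ?_⟩
  rw [hι, hι'] at hσ
  refine hσ γ (hγ.trans ?_)
  have h2 := wd_onL hy hy'
  have h3 : wd y y' (0, 1) = y 0 * y' 0 * (y' 1 / y' 0 - y 1 / y 0) := by rw [h2, wd_eq]; simp
  rw [← h3] at h2
  rw [pb_mx1, show (fun i => inc ℂ E L (p5 x i)) = _ from funext (map_p5 (algebraMap E L) x),
    ← mxf_wd, sub_eq_iff_eq_add]
  exact (congrArg (mxf ℂ) (funext h2)).trans (mxf_mul ⟨(0, 1), by simp [wd_eq]⟩ hw)

end Crest.Agent.X262.Bv3
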