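import Crest.Agent.X262.St91.Defs
import Crest.Agent.X262.Pf19.Defs
import Crest.Agent.X262.Geo.Val
import Crest.Agent.X262.Brg.Hyp0

/-!
# Row 262, G4 / BV (helper3), part 1: a quartic without lines along a line

* `NoL.field`, `exists_unit` : no line over a field, over a valuation ring;
* `eq_prod`  : the restriction of the quartic to a line with four distinct roots;
* `sum_mxf`  : the hyperplane classes of the four points add up to four times the Plücker class.
-/

set_option autoImplicit false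
set_option linter.unusedSectionVars false

open MvPolynomial

noncomputable section

namespace Crest.Agent.X262.Bv3

open Crest.Agent.X277 Crest.Agent.X277.BD Crest.Agent.X277.BD.Cyc
open Crest.Agent.X262.St91 Crest.Agent.X262.Geo
open Crest.Agent.X262.Brg.Hyp0 (aeval_smul)

attribute [local irreducible] mxf

variable {Γ : MvPolynomial (Fin 4) ℂ} {K : Type} [Field K] [Algebra ℂ K]

theorem nol_field (h : NoL Γ) {u v : Fin 4 → K}
    (H : ∀ s t : ℂ, aeval (s • u + t • v) Γ = 0) : Par u v := by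
  classical
  intro i j
  by_contra h0
  rw [← Ne, ← sub_ne_zero] at h0
  obtain ⟨C, hC, ⟨χ⟩⟩ := Pf19.exists_spec (K := K)
    (((Set.finite_range u).union (Set.finite_range v)).insert (u i * v j - u j * v i)⁻¹)
  let u' : Fin 4 → C := fun l => ⟨u l, hC (.inr (.inl ⟨l, rfl⟩))⟩
  let v' : Fin 4 → C := fun l => ⟨v l, hC (.inr (.inr ⟨l, rfl⟩))⟩
  have h1 := h (χ ∘ u') (χ ∘ v') (fun s t => by
    have h2 : aeval (s • u' + t • v') Γ = 0 := Subtype.ext (by
      rw [← C.coe_val, ← AlgHom.comp_apply, comp_aeval]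
      exact H s t)
    have h3 := congrArg χ h2
    rw [← AlgHom.comp_apply, comp_aeval, map_zero] at h3
    rw [← coe_aeval_eq_eval, ← h3]
    change aeval _ Γ = _
    congr 2
    funext l
    simp) i j
  have h4 : (u' i * v' j - u' j * v' i) * ⟨_, hC (.inl rfl)⟩ = 1 :=
    Subtype.ext (mul_inv_cancel₀ h0)
  have h5 := congrArg χ h4
  rw [map_mul, map_sub, map_mul, map_mul, show χ _ * χ _ = χ _ * χ _ from h1, sub_self, zero_mul,
    map_one] at h5
  exact zero_ne_one h5

theorem aeval_mem {V : RZ ℂ K} {z : Fin 4 → K} (hz : ∀ i, z i ∈ V.1) : V.v (aeval z Γ) ≤ 1 :=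
  RZ.le_one_iff.2 (r_aeval (lnr_plV V) hz Γ).1

theorem smul_mem {V : RZ ℂ K} (c : ℂ) {z : K} (hz : z ∈ V.1) : c • z ∈ V.1 :=
  RZ.le_one_iff.1 ((V.v_smul_le c z).trans (RZ.le_one_iff.2 hz))

theorem r_smul {V : RZ ℂ K} (c : ℂ) {z : K} (hz : z ∈ V.1) :
    (plV V).r (c • z) = c • (plV V).r z := by
  rw [Algebra.smul_def, Pl.r_mul (p := plV V) (V.2 c) hz, lnr_plV V c, Algebra.smul_def]

theorem exists_unit (h : NoL Γ) (V : RZ ℂ K) {e f : Fin 4 → K} (he : ∀ i, e i ∈ V.1)
    (hf : ∀ i, f i ∈ V.1) {a b : Fin 4} (h1 : e a * f b - e b * f a = 1) :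
    ∃ s t : ℂ, V.v (aeval (s • e + t • f) Γ) = 1 := by
  by_contra h0
  push Not at h0
  have h2 := nol_field h (u := fun i => (plV V).r (e i)) (v := fun i => (plV V).r (f i))
    (fun s t => by
      have h3 := (r_aeval (lnr_plV V) (y := s • e + t • f)
        (fun i => add_mem (smul_mem s (he i)) (smul_mem t (hf i))) Γ).2
      rw [not_not.1 ((Pl.r_ne_zero_iff (p := plV V)).not.2 (h0 s t))] at h3
      rw [h3]
      congr 2
      funext i
      rw [Pi.add_apply, Pi.add_apply, Pi.smul_apply, Pi.smul_apply, Pi.smul_apply, Pi.smul_apply,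
        Pl.r_add (p := plV V) (smul_mem s (he i)) (smul_mem t (hf i)), r_smul s (he i),
        r_smul t (hf i)]) a b
  have h4 := congrArg (plV V).r h1
  rw [Pl.r_sub (p := plV V) (mul_mem (he a) (hf b)) (mul_mem (he b) (hf a)),
    Pl.r_mul (p := plV V) (he a) (hf b), Pl.r_mul (p := plV V) (he b) (hf a), h2, sub_self,
    Pl.r_one] at h4
  exact zero_ne_one h4

/-- congruent points have congruent values -/
theorem v_aeval_eq {V : RZ ℂ K} {z z' : Fin 4 → K} (hz : ∀ i, z i ∈ V.1)
    (h : ∀ i, V.v (z' i - z i) < 1) (h1 : V.v (aeval z Γ) = 1) : V.v (aeval z' Γ) = 1 := by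
  have h2 : ∀ i, z' i - z i ∈ V.1 := fun i => RZ.le_one_iff.1 (h i).le
  have h3 : ∀ i, z' i ∈ V.1 := fun i => by simpa using add_mem (h2 i) (hz i)
  replace h1 := (Pl.r_ne_zero_iff (p := plV V)).2 h1
  refine (Pl.r_ne_zero_iff (p := plV V)).1 ?_
  rw [(r_aeval (lnr_plV V) hz Γ).2] at h1
  rw [(r_aeval (lnr_plV V) h3 Γ).2]
  convert h1 using 3
  funext i
  rw [← sub_eq_zero, ← Pl.r_sub (p := plV V) (h3 i) (hz i), Pl.r_eq_zero (p := plV V) (h2 i)]
  exact h i

/-- a generic combination -/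
theorem exists_gen (V : RZ ℂ K) {I : Type} [Finite I] (A B : I → K) :
    ∃ μ : ℂ, ∀ i, max (V.v (A i)) (V.v (B i)) ≤ V.v (B i - μ • A i) := by
  have h1 : ∀ i, {μ : ℂ | V.v (B i - μ • A i) < max (V.v (A i)) (V.v (B i))}.Finite := fun i => by
    refine Set.Subsingleton.finite fun μ h ν h' => by_contra fun hne => ?_
    have h2 : V.v (A i) < max (V.v (A i)) (V.v (B i)) := by
      have h3 := V.v.map_sub_lt h' h
      rwa [sub_sub_sub_cancel_left, ← sub_smul, Algebra.smul_def, map_mul,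
        V.v_alg (sub_ne_zero.2 hne), one_mul] at h3
    have h4 := V.v.map_add_lt h ((V.v_smul_le μ (A i)).trans_lt h2)
    rw [sub_add_cancel] at h4
    exact (max_lt h2 h4).false
  obtain ⟨μ, hμ⟩ := (Set.finite_iUnion h1).exists_notMem
  exact ⟨μ, fun i => not_lt.1 fun h => hμ (Set.mem_iUnion.2 ⟨i, h⟩)⟩

/-- the quartic along a line -/
def lnP (Γ : MvPolynomial (Fin 4) ℂ) (u v : Fin 4 → K) : Polynomial K :=
  aeval (fun j => Polynomial.C (u j) + Polynomial.X * Polynomial.C (v j)) Γ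

theorem aeval_lnP {L : Type} [Field L] [Algebra ℂ L] [Algebra K L] [IsScalarTower ℂ K L]
    (u v : Fin 4 → K) (t : L) : Polynomial.aeval t (lnP Γ u v) =
      aeval (fun j => algebraMap K L (u j) + t * algebraMap K L (v j)) Γ := by
  have h := DFunLike.congr_fun (comp_aeval (R := ℂ)
    (fun j => Polynomial.C (u j) + Polynomial.X * Polynomial.C (v j))
    ((Polynomial.aeval (R := K) t).restrictScalars ℂ)) Γ
  refine Eq.trans h ?_
  simp only [AlgHom.coe_restrictScalars', map_add, map_mul, Polynomial.aeval_C, Polynomial.aeval_X]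

theorem eval_lnP (u v : Fin 4 → K) (t : K) : (lnP Γ u v).eval t = aeval (u + t • v) Γ := by
  rw [← Polynomial.coe_aeval_eq_eval, aeval_lnP]
  rfl

theorem natDegree_lnP (hΓ : Γ.IsHomogeneous 4) (u v : Fin 4 → K) : (lnP Γ u v).natDegree ≤ 4 := by
  have h := aeval_natDegree_le (n := 1) (map (algebraMap ℂ K) Γ) (hΓ.map _).totalDegree_le
    (fun j => Polynomial.C (u j) + Polynomial.X * Polynomial.C (v j)) fun j => by compute_degree
  rwa [aeval_map_algebraMap] at h

theorem lnP_ne (h : NoL Γ) {u v : Fin 4 → K} (hΓ : Γ.IsHomogeneous 4) (h0 : ¬ Par u v) :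
    lnP Γ u v ≠ 0 := fun h1 => h0 (nol_field h fun s t => by
  have : Infinite K := Infinite.of_injective _ (algebraMap ℂ K).injective
  have h2 : lnP Γ (t • v) u = 0 := by
    refine Polynomial.eq_zero_of_infinite_isRoot _
      ((Set.finite_singleton 0).infinite_compl.mono fun r hr => ?_)
    have h3 := congrArg (Polynomial.eval (r⁻¹ * algebraMap ℂ K t)) h1
    rw [eval_lnP, Polynomial.eval_zero] at h3
    have h4 := aeval_smul hΓ r (u + (r⁻¹ * algebraMap ℂ K t) • v)
    rw [h3, mul_zero, smul_add, smul_smul, mul_inv_cancel_left₀ hr, algebraMap_smul,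
      add_comm] at h4
    exact (eval_lnP _ _ _).trans h4
  have h5 := congrArg (Polynomial.eval (algebraMap ℂ K s)) h2
  rwa [eval_lnP, Polynomial.eval_zero, algebraMap_smul, add_comm] at h5)

theorem eq_prod (hΓ : Γ.IsHomogeneous 4) {u v : Fin 4 → K} {I : Type} [Fintype I]
    (hI : Fintype.card I = 4) {s : I → K} (hs : Function.Injective s)
    (h : ∀ i, aeval (u + s i • v) Γ = 0) (α β : K) :
    aeval (α • u + β • v) Γ = aeval v Γ * ∏ i, (β - s i * α) := by
  classical
  have : Infinite K := Infinite.of_injective _ (algebraMap ℂ K).injective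
  have h1 : ∏ i, (Polynomial.X - Polynomial.C (s i)) ∣ lnP Γ u v :=
    Fintype.prod_dvd_of_coprime (Polynomial.pairwise_coprime_X_sub_C hs)
      fun i => Polynomial.dvd_iff_isRoot.2 ((eval_lnP _ _ _).trans (h i))
  have h2 := Polynomial.eq_leadingCoeff_mul_of_monic_of_dvd_of_natDegree_le
    (Polynomial.monic_prod_X_sub_C s _) h1 (by simpa [hI] using natDegree_lnP hΓ u v)
  set c := (lnP Γ u v).leadingCoeff
  have h3 : ∀ α β : K, aeval (α • u + β • v) Γ = c * ∏ i, (β - s i * α) := fun α β => by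
    have h4 : lnP Γ (β • v) u =
        Polynomial.C c * ∏ i, (Polynomial.C β - Polynomial.C (s i) * Polynomial.X) := by
      refine Polynomial.eq_of_infinite_eval_eq _ _
        ((Set.finite_singleton 0).infinite_compl.mono fun r hr => ?_)
      have h5 := congrArg (Polynomial.eval (r⁻¹ * β)) h2
      have h6 := aeval_smul hΓ r (u + (r⁻¹ * β) • v)
      rw [smul_add, smul_smul, mul_inv_cancel_left₀ hr, add_comm, ← eval_lnP, ← eval_lnP,
        h5] at h6
      refine h6.trans ?_
      simp only [Polynomial.eval_mul, Polynomial.eval_C, Polynomial.eval_prod,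
        Polynomial.eval_sub, Polynomial.eval_X]
      rw [← hI, ← Finset.card_univ, ← Finset.prod_const, mul_left_comm, ← Finset.prod_mul_distrib]
      exact congrArg _ (Finset.prod_congr rfl fun i _ => by
        rw [mul_sub, mul_inv_cancel_left₀ hr, mul_comm])
    have h7 := congrArg (Polynomial.eval α) h4
    rw [eval_lnP, add_comm] at h7
    simpa [Polynomial.eval_prod] using h7
  have h8 := h3 0 1
  simp only [zero_smul, one_smul, zero_add, mul_zero, sub_zero, Finset.prod_const_one,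
    mul_one] at h8
  rw [h8, h3]

theorem v_le_mxf {k ι : Type} [Field k] [Algebra k K] [Fintype ι] (s : ι → K) (i : ι) (V : RZ k K) :
    V.v (s i) ≤ (mxf k s).val V := mem_Sec_mxf s i V

theorem alg1 {u v : Fin 4 → K} {a b : Fin 4} (hw : wd u v (a, b) ≠ 0) (s : K) (j : Fin 4) :
    u j + s * v j = (u a + s * v a) * (wd u v (j, b) / wd u v (a, b)) +
      (u b + s * v b) * (wd u v (a, j) / wd u v (a, b)) := by
  field_simp
  simp only [wd]
  ring

theorem alg2 {u v : Fin 4 → K} {a b : Fin 4} (l m : K) (j : Fin 4) :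
    (l * v b - m * v a) / wd u v (a, b) * u j + (m * u a - l * u b) / wd u v (a, b) * v j =
      l * (wd u v (j, b) / wd u v (a, b)) + m * (wd u v (a, j) / wd u v (a, b)) := by
  simp only [wd]
  ring

theorem alg3 {u v : Fin 4 → K} {a b : Fin 4} (hw : wd u v (a, b) ≠ 0) (l m s : K) :
    ((m * u a - l * u b) / wd u v (a, b) - s * ((l * v b - m * v a) / wd u v (a, b))) *
      wd u v (a, b) = -(l * (u b + s * v b) - m * (u a + s * v a)) := by
  field_simp
  ring

theorem alg4 {u v : Fin 4 → K} {a b : Fin 4} (hw : wd u v (a, b) ≠ 0) :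
    wd u v (a, b) / wd u v (a, b) * (wd u v (a, b) / wd u v (a, b)) -
      wd u v (b, b) / wd u v (a, b) * (wd u v (a, a) / wd u v (a, b)) = 1 := by
  rw [div_self hw]
  simp [wd]

/-- **the norm of the hyperplane class** -/
theorem sum_mxf (h : NoL Γ) {u v : Fin 4 → K} (h0 : ∃ ij, wd u v ij ≠ 0) {I : Type} [Fintype I]
    (hI : Fintype.card I = 4) {s : I → K} {c : K} (hc : c ≠ 0)
    (H : ∀ α β : K, aeval (α • u + β • v) Γ = c * ∏ i, (β - s i * α)) :
    ∑ i, mxf ℂ (u + s i • v) + pr ℂ c = 4 • mxf ℂ (wd u v) := by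
  refine ext' fun V => ?_
  obtain ⟨⟨a, b⟩, hab⟩ := exists_val_mxf (k := ℂ) h0 V
  have hw : wd u v (a, b) ≠ 0 := ne_of_val hab
  have hm : ∀ ij, wd u v ij / wd u v (a, b) ∈ V.1 := fun ij =>
    (RZ.le_iff hw).1 ((v_le_mxf (wd u v) ij V).trans hab.ge)
  obtain ⟨e, he⟩ : ∃ e : Fin 4 → K, ∀ j, e j = wd u v (j, b) / wd u v (a, b) := ⟨_, fun _ => rfl⟩
  obtain ⟨f, hf⟩ : ∃ f : Fin 4 → K, ∀ j, f j = wd u v (a, j) / wd u v (a, b) := ⟨_, fun _ => rfl⟩
  obtain ⟨z, hz⟩ : ∃ z : I → Fin 4 → K, ∀ i, u + s i • v = z i := ⟨_, fun _ => rfl⟩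
  have hz' : ∀ i j, z i j = u j + s i * v j := fun i j => (congrFun (hz i) j).symm
  have he' : ∀ j, e j ∈ V.1 := fun j => (he j).symm ▸ hm (j, b)
  have hf' : ∀ j, f j ∈ V.1 := fun j => (hf j).symm ▸ hm (a, j)
  have h1 : ∀ i j, z i j = z i a * e j + z i b * f j := fun i j => by
    rw [hz', hz' i a, hz' i b, he, hf]
    exact alg1 hw _ _
  have h2 : ∀ i, ∃ j, z i j ≠ 0 := fun i => by
    by_contra h3
    push Not at h3
    have h4 := (hz' i a).symm.trans (h3 a)
    have h5 := (hz' i b).symm.trans (h3 b)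
    exact hw (show u a * v b - u b * v a = 0 by linear_combination v b * h4 - v a * h5)
  have h3 : ∀ i, (mxf ℂ (z i)).val V = max (V.v (z i a)) (V.v (z i b)) := fun i => by
    refine le_antisymm ?_ (max_le (v_le_mxf (z i) a V) (v_le_mxf (z i) b V))
    obtain ⟨j, hj⟩ := exists_val_mxf (k := ℂ) (h2 i) V
    rw [← hj, h1]
    refine (V.v.map_add _ _).trans (max_le_max ?_ ?_) <;> rw [map_mul]
    · exact mul_le_of_le_one_right' (RZ.le_one_iff.2 (he' j))
    · exact mul_le_of_le_one_right' (RZ.le_one_iff.2 (hf' j))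
  have h4 : ∀ l m : ℂ, V.v (aeval (l • e + m • f) Γ) * V.v (wd u v (a, b)) ^ 4 =
      V.v c * ∏ i, V.v (l • z i b - m • z i a) := fun l m => by
    have h5 := H ((algebraMap ℂ K l * v b - algebraMap ℂ K m * v a) / wd u v (a, b))
      ((algebraMap ℂ K m * u a - algebraMap ℂ K l * u b) / wd u v (a, b))
    have h6 : ((algebraMap ℂ K l * v b - algebraMap ℂ K m * v a) / wd u v (a, b)) • u +
        ((algebraMap ℂ K m * u a - algebraMap ℂ K l * u b) / wd u v (a, b)) • v =
        l • e + m • f := funext fun j => by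
      rw [Pi.add_apply, Pi.add_apply, Pi.smul_apply, Pi.smul_apply, Pi.smul_apply, Pi.smul_apply,
        Algebra.smul_def l, Algebra.smul_def m, he, hf]
      exact alg2 _ _ _
    rw [h6] at h5
    rw [h5, map_mul, map_prod, mul_assoc, show V.v (wd u v (a, b)) ^ 4 = ∏ _i : I, V.v (wd u v (a, b))
      by rw [Finset.prod_const, Finset.card_univ, hI], ← Finset.prod_mul_distrib]
    refine congrArg _ (Finset.prod_congr rfl fun i _ => ?_)
    rw [← map_mul, alg3 hw, Valuation.map_neg, hz', hz', Algebra.smul_def, Algebra.smul_def]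
  have h5 : ∀ (l m : ℂ) i, V.v (l • z i b - m • z i a) ≤ max (V.v (z i a)) (V.v (z i b)) :=
    fun l m i => (V.v.map_sub _ _).trans
      ((max_le_max (V.v_smul_le _ _) (V.v_smul_le _ _)).trans_eq (max_comm _ _))
  rw [val_add, val_sum, val_pr hc, val_nsmul, ← hab, mul_comm]
  simp only [hz, h3]
  refine le_antisymm ?_ ?_
  · obtain ⟨μ, hμ⟩ := exists_gen V (fun i => z i a) fun i => z i b
    have h6 := h4 1 μ
    simp only [one_smul] at h6
    refine (mul_le_mul_right (Finset.prod_le_prod' fun i _ => hμ i) _).trans (h6.ge.trans ?_)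
    exact mul_le_of_le_one_left' (aeval_mem fun j => add_mem (he' j) (smul_mem _ (hf' j)))
  · obtain ⟨l, m, h6⟩ := exists_unit h V he' hf' (a := a) (b := b)
      (by rw [he, he, hf, hf]; exact alg4 hw)
    have h7 := h4 l m
    rw [h6, one_mul] at h7
    exact h7.le.trans (mul_le_mul_right (Finset.prod_le_prod' fun i _ => h5 l m i) _)

end Crest.Agent.X262.Bv3
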